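import Vale.Agent.P072.Main

/-!
The permanence theorem for weakly reversible mass-action systems.
-/

namespace Vale.Agent.Results.P072.Permanence

open MeasureTheory Set Vale.Agent.P072

theorem result :
    ∀ (d : ℕ) (R : Finset ((Fin d → ℕ) × (Fin d → ℕ))),
      (∀ r ∈ R, r.1 ≠ r.2) →
      (∀ r ∈ R, Relation.ReflTransGen (fun y y' => (y, y') ∈ R) r.2 r.1) →
      ∀ c : Fin d → ℝ, (∀ i, 0 < c i) →
      let S : Submodule ℝ (Fin d → ℝ) :=
        Submodule.span ℝ {v | ∃ r ∈ R, v = fun i => (r.2 i : ℝ) - (r.1 i : ℝ)}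
      let P : Set (Fin d → ℝ) := {x | (∀ i, 0 < x i) ∧ x - c ∈ S}
      let f : ((Fin d → ℕ) × (Fin d → ℕ) → ℝ) → (Fin d → ℝ) → (Fin d → ℝ) := fun k x =>
        ∑ r ∈ R, (k r * ∏ i, x i ^ r.1 i) • fun i => (r.2 i : ℝ) - (r.1 i : ℝ)
      (∀ k : (Fin d → ℕ) × (Fin d → ℕ) → ℝ, (∀ r ∈ R, 0 < k r) →
        ∃ K : Set (Fin d → ℝ), IsCompact K ∧ K ⊆ P ∧
          ∀ x₀ ∈ P, ∃ x : ℝ → Fin d → ℝ, x 0 = x₀ ∧
            (∀ t, 0 ≤ t → HasDerivWithinAt x (f k (x t)) (Ici 0) t ∧ x t ∈ P) ∧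
            (∃ T, ∀ t, T ≤ t → x t ∈ K) ∧
            ∀ (T : ℝ) (y : ℝ → Fin d → ℝ), y 0 = x₀ →
              (∀ t ∈ Icc (0 : ℝ) T, HasDerivWithinAt y (f k (y t)) (Icc 0 T) t) →
              ∀ t ∈ Icc (0 : ℝ) T, y t = x t) ∧
      (∀ ε : ℝ, 0 < ε → ∃ K : Set (Fin d → ℝ), IsCompact K ∧ K ⊆ P ∧
        ∀ k : ℝ → (Fin d → ℕ) × (Fin d → ℕ) → ℝ,
          (∀ r ∈ R, Measurable fun t => k t r) →
          (∀ t, ∀ r ∈ R, ε ≤ k t r ∧ k t r ≤ ε⁻¹) →
          ∀ x : ℝ → Fin d → ℝ, ContinuousOn x (Ici 0) → x 0 ∈ P →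
            (∀ t, 0 ≤ t → x t = x 0 + ∫ s in (0 : ℝ)..t, f (k s) (x s)) →
            (∀ t, 0 ≤ t → x t ∈ P) ∧ ∃ T, ∀ t, T ≤ t → x t ∈ K) := by
  intro d R _ hwr c hc S P f
  refine ⟨fun k hk => ?_, fun ε hε => ?_⟩
  · set N : ℝ := ∑ r ∈ R, (k r + (k r)⁻¹) + 1 with hN
    have hterm : ∀ r ∈ R, 0 ≤ k r + (k r)⁻¹ := fun r hr => by have := hk r hr; positivity
    have hN1 : 1 ≤ N := by have := Finset.sum_nonneg hterm; rw [hN]; linarith
    have hkN : ∀ r ∈ R, N⁻¹ ≤ k r ∧ k r ≤ 1 / N⁻¹ := by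
      intro r hr
      have hr0 := hk r hr
      have h1 := Finset.single_le_sum hterm hr
      have h2 : 0 < (k r)⁻¹ := inv_pos.mpr hr0
      refine ⟨?_, by rw [one_div, inv_inv, hN]; linarith⟩
      rw [inv_le_comm₀ (by linarith) hr0, hN]
      linarith
    obtain ⟨M, R0, hs⟩ := exists_setup R hwr (ε := N⁻¹) (by positivity)
    obtain ⟨K, hKc, hKP, hK⟩ := absorbing hs hc
    refine ⟨K, hKc, hKP, fun x₀ hx₀ => ?_⟩
    obtain ⟨x, hx0, hxd, hxs, hxu⟩ := exists_unique hs hkN hx₀.1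
    obtain ⟨hPt, hT⟩ := hK (fun _ => k) (fun _ => hkN) x (by rw [hx0]; exact hx₀.1)
      (by rw [hx0]; exact hx₀.2) hxs
    exact ⟨x, hx0, fun t ht => ⟨hxd t ht, hPt t ht⟩, hT, hxu⟩
  · obtain ⟨M, R0, hs⟩ := exists_setup R hwr hε
    obtain ⟨K, hKc, hKP, hK⟩ := absorbing hs hc
    refine ⟨K, hKc, hKP, fun k hkm hkb x hxc hx0 hxe => ?_⟩
    refine hK k (fun t r hr => by simpa [one_div] using hkb t r hr) x hx0.1 hx0.2 (fun T hT => ?_)
    have hcT : ContinuousOn x (Icc 0 T) := hxc.mono Icc_subset_Ici_self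
    refine ⟨hcT, ?_, fun t ht => hxe t ht.1⟩
    have hsum : IntervalIntegrable (∑ r ∈ R, fun s => (k s r * ∏ i, x s i ^ r.1 i) •
        fun i => (r.2 i : ℝ) - (r.1 i : ℝ)) volume 0 T := by
      refine IntervalIntegrable.sum R fun r hr => ?_
      have hk1 : IntervalIntegrable (fun s => k s r) volume 0 T := by
        refine (intervalIntegrable_const (c := ε⁻¹)).mono_fun
          (hkm r hr).aestronglyMeasurable (ae_of_all _ fun s => ?_)
        have h1 := hkb s r hr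
        simp only [Real.norm_eq_abs]
        rw [abs_of_nonneg (hε.le.trans h1.1),
          abs_of_nonneg (inv_nonneg.mpr hε.le)]
        exact h1.2
      have hm : ContinuousOn (fun s => ∏ i, x s i ^ r.1 i) (uIcc 0 T) := by
        rw [uIcc_of_le hT]
        exact continuousOn_finsetProd _ fun i _ =>
          ((continuous_apply i).comp_continuousOn hcT).pow _
      exact (hk1.mul_continuousOn hm).smul_continuousOn continuousOn_const
    convert hsum using 1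
    funext s
    simp [field, Finset.sum_apply]

end Vale.Agent.Results.P072.Permanence
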